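import Vale.Agent.P147.Proj.Main

open MeasureTheory
open scoped ENNReal

namespace Vale.Agent.Results.P147.BalancedProjection

open Vale.Agent.P147

/-- The directional zero-one law in every direction for iid elliptic environments having a balanced,
not too anisotropic projection of effective dimension above four; in particular when more than
four axes are balanced with comparable probabilities and the other axes are arbitrary. -/
theorem result (d : ℕ) :
    (∃ Q : Env d → Site d → Measure (ℕ → Site d), IsQuenchedLaw Q) ∧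
    ∀ Q : Env d → Site d → Measure (ℕ → Site d), IsQuenchedLaw Q →
      ∀ μ : Measure (Row d), IsProbabilityMeasure μ → (∀ᵐ p ∂μ, ∀ a, 0 < p.1 a) →
      ∀ l : Fin d → ℝ, ∀ c : ℝ, c < 1 / 4 →
        (∀ (k : ℕ) (u : Fin d → Fin k → ℝ), (∃ i j, u i j ≠ 0) →
          (∀ᵐ p ∂μ, Proj.Balanced u c p) →
          ∃ q : ℝ≥0∞, (q = 0 ∨ q = 1) ∧
            (∀ᵐ ω ∂Measure.infinitePi (fun _ : Site d => μ), ∀ x, Q ω x (dirEscape l) = q) ∧
            ∫⁻ ω, Q ω 0 (dirEscape l) ∂Measure.infinitePi (fun _ : Site d => μ) = q) ∧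
        (∀ S : Finset (Fin d), S.Nonempty →
          (∀ᵐ p ∂μ, ∀ i ∈ S, p.1 (i, true) = p.1 (i, false) ∧
            p.1 (i, true) ≤ c * ∑ j ∈ S, p.1 (j, true)) →
          ∃ q : ℝ≥0∞, (q = 0 ∨ q = 1) ∧
            (∀ᵐ ω ∂Measure.infinitePi (fun _ : Site d => μ), ∀ x, Q ω x (dirEscape l) = q) ∧
            ∫⁻ ω, Q ω 0 (dirEscape l) ∂Measure.infinitePi (fun _ : Site d => μ) = q) := by
  classical
  refine ⟨exists_quenchedLaw d, fun Q hQ μ hμ hell l c hc => ?_⟩
  have := hμ
  obtain ⟨hinv, hA⟩ := Proj.invariant_dirEscape l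
  have main : ∀ (k : ℕ) (u : Fin d → Fin k → ℝ), (∃ i j, u i j ≠ 0) →
      (∀ᵐ p ∂μ, Proj.Balanced u c p) →
      ∃ q : ℝ≥0∞, (q = 0 ∨ q = 1) ∧
        (∀ᵐ ω ∂Measure.infinitePi (fun _ : Site d => μ), ∀ x, Q ω x (dirEscape l) = q) ∧
        ∫⁻ ω, Q ω 0 (dirEscape l) ∂Measure.infinitePi (fun _ : Site d => μ) = q :=
    fun k u hu hb => Proj.zero_one_invariant μ hQ hA hinv hc (hb.and hell) hu
  refine ⟨main, fun S hS hrow => ?_⟩
  obtain ⟨i₀, hi₀⟩ := hS
  refine main d (fun i j => if i = j ∧ i ∈ S then (1 : ℝ) else 0) ⟨i₀, i₀, by simp [hi₀]⟩ ?_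
  filter_upwards [hrow] with p hp
  set u : Fin d → Fin d → ℝ := fun i j => if i = j ∧ i ∈ S then (1 : ℝ) else 0 with u_def
  have hpr : ∀ (i : Fin d) (b : Bool) j, Proj.pr u (vec (i, b)) j
      = if i = j ∧ i ∈ S then (if b then 1 else -1) else 0 := by
    intro i b j
    simp only [Proj.pr, vec, u_def]
    rw [Finset.sum_eq_single i (fun m _ hm => by simp [hm]) (by simp)]
    rw [Pi.single_eq_same]
    by_cases h : i = j ∧ i ∈ S <;> cases b <;> simp [h]
  have hnsq : ∀ (i : Fin d) (b : Bool), Proj.nsq (Proj.pr u (vec (i, b)))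
      = if i ∈ S then 1 else 0 := by
    intro i b
    simp only [Proj.nsq, hpr]
    rw [Finset.sum_eq_single i (fun m _ hm => by simp [Ne.symm hm]) (by simp)]
    by_cases h : i ∈ S <;> cases b <;> simp [h]
  have hdot : ∀ (θ : Fin d → ℝ) (i : Fin d) (b : Bool), Proj.dot θ (Proj.pr u (vec (i, b)))
      = if i ∈ S then (if b then θ i else -θ i) else 0 := by
    intro θ i b
    simp only [Proj.dot, hpr]
    rw [Finset.sum_eq_single i (fun m _ hm => by simp [Ne.symm hm]) (by simp)]
    by_cases h : i ∈ S <;> cases b <;> simp [h]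
  have hrho : Proj.rho u p = 2 * ∑ j ∈ S, p.1 (j, true) := by
    simp only [Proj.rho, Fintype.sum_prod_type, Fintype.sum_bool, hnsq, mul_ite, mul_one, mul_zero]
    rw [Finset.mul_sum, Finset.sum_add_distrib, Finset.sum_ite_mem, Finset.sum_ite_mem,
      Finset.univ_inter, ← Finset.sum_add_distrib]
    exact Finset.sum_congr rfl fun j hj => by rw [← (hp j hj).1]; ring
  constructor
  · intro j
    simp only [Fintype.sum_prod_type, Fintype.sum_bool, hpr]
    refine Finset.sum_eq_zero fun i _ => ?_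
    by_cases h : i = j ∧ i ∈ S
    · have hj : j ∈ S := h.1 ▸ h.2
      simp [h, hj, (hp j hj).1]
    · simp [h]
  · intro θ
    simp only [Fintype.sum_prod_type, Fintype.sum_bool, hdot, hrho]
    have hT : 0 ≤ c * ∑ j ∈ S, p.1 (j, true) :=
      le_trans (p.2.1 _) (hp i₀ hi₀).2
    rw [Proj.nsq, Finset.mul_sum, Finset.sum_mul]
    refine Finset.sum_le_sum fun i _ => ?_
    have hsq := sq_nonneg (θ i)
    by_cases h : i ∈ S
    · obtain ⟨h1, h2⟩ := hp i h
      simp only [h, if_true, ← h1, Bool.false_eq_true, if_false, neg_sq]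
      nlinarith [mul_le_mul_of_nonneg_right h2 hsq]
    · simp only [h, if_false]
      nlinarith [mul_nonneg hT hsq]

end Vale.Agent.Results.P147.BalancedProjection
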