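import Vale.Agent.P147.Bal.Limit

open MeasureTheory Filter Topology
open scoped ENNReal

namespace Vale.Agent.Results.P147.BallisticZeroOne

open Vale.Agent.P147

/-- In dimension at least four, for every iid elliptic law, the walk has a deterministic velocity
almost surely, and if it is nonzero then every invariant event, in particular escape in every
direction, has quenched probability zero or one. So a law which violates the zero-one law has zero
velocity. -/
theorem result (d : ℕ) (hd : 4 ≤ d) :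
    (∃ Q : Env d → Site d → Measure (ℕ → Site d), IsQuenchedLaw Q) ∧
    ∀ Q : Env d → Site d → Measure (ℕ → Site d), IsQuenchedLaw Q →
      ∀ μ : Measure (Row d), IsProbabilityMeasure μ → (∀ᵐ p ∂μ, ∀ a, 0 < p.1 a) →
        ∃ v : Fin d → ℝ,
          (∀ᵐ ω ∂Proj.iid μ, Q ω 0 (Bal.velEvent v) = 1) ∧
          ∫⁻ ω, Q ω 0 (Bal.velEvent v) ∂Proj.iid μ = 1 ∧
          (v ≠ 0 →
            (∀ l : Fin d → ℝ, ∃ q : ℝ≥0∞, (q = 0 ∨ q = 1) ∧
              (∀ᵐ ω ∂Proj.iid μ, ∀ x, Q ω x (dirEscape l) = q) ∧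
              ∫⁻ ω, Q ω 0 (dirEscape l) ∂Proj.iid μ = q) ∧
            ∀ S : Set (ℕ → Site d), MeasurableSet S → Proj.Invariant S →
              ∃ q : ℝ≥0∞, (q = 0 ∨ q = 1) ∧
                (∀ᵐ ω ∂Proj.iid μ, ∀ x, Q ω x S = q) ∧ ∫⁻ ω, Q ω 0 S ∂Proj.iid μ = q) ∧
          ((∃ l : Fin d → ℝ,
              ∫⁻ ω, Q ω 0 (dirEscape l) ∂Proj.iid μ ≠ 0 ∧
              ∫⁻ ω, Q ω 0 (dirEscape l) ∂Proj.iid μ ≠ 1) → v = 0) := by
  refine ⟨exists_quenchedLaw d, fun Q hQ μ hμ hell => ?_⟩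
  have := hμ
  obtain ⟨v, hv⟩ := Bal.exists_velocity hd hQ hell
  have hone : ∀ᵐ ω ∂Proj.iid μ, Q ω 0 (Bal.velEvent v) = 1 := by
    filter_upwards [hv] with ω hω
    have := hQ.prob ω 0
    exact (prob_compl_eq_zero_iff (Bal.velEvent_invariant v).2).1 hω
  have htot : ∫⁻ ω, Q ω 0 (Bal.velEvent v) ∂Proj.iid μ = 1 := by
    rw [lintegral_congr_ae hone]
    simp
  have main : ∀ S : Set (ℕ → Site d), v ≠ 0 → MeasurableSet S → Proj.Invariant S →
      ∃ q : ℝ≥0∞, (q = 0 ∨ q = 1) ∧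
        (∀ᵐ ω ∂Proj.iid μ, ∀ x, Q ω x S = q) ∧ ∫⁻ ω, Q ω 0 S ∂Proj.iid μ = q := by
    intro S hv0 hS hinv
    obtain ⟨e, he⟩ : ∃ e : Step d, ∫⁻ ω, Q ω 0 (Bal.fastEscape e) ∂Proj.iid μ ≠ 0 := by
      by_contra hno
      push Not at hno
      have h0 : ∫⁻ ω, Q ω 0 (Bal.velEvent v) ∂Proj.iid μ = 0 := by
        refine le_antisymm ((lintegral_mono fun ω => measure_mono ?_).trans
          (Bal.lintegral_not_zero_vel hQ hell hno).le) bot_le
        intro X hX h0
        exact hv0 (funext fun j => tendsto_nhds_unique (hX j) (h0 j))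
      rw [htot] at h0
      exact one_ne_zero h0
    exact Bal.zero_one_invariant hd hQ hS hinv hell he
  refine ⟨v, hone, htot, fun h0 => ⟨fun l => main _ h0 (Proj.invariant_dirEscape l).2
    (Proj.invariant_dirEscape l).1, fun S hS hinv => main S h0 hS hinv⟩, ?_⟩
  rintro ⟨l, h0, h1⟩
  by_contra h
  obtain ⟨q, hq, -, hval⟩ :=
    main _ h (Proj.invariant_dirEscape l).2 (Proj.invariant_dirEscape l).1
  rcases hq with rfl | rfl
  · exact h0 hval
  · exact h1 hval

end Vale.Agent.Results.P147.BallisticZeroOne
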