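import Vale.Agent.P147.Thin.Struct
import Vale.Agent.P147.Thin.Local
import Vale.Agent.P147.Thin.Extent
import Vale.Agent.P147.Thin.Trail
import Vale.Agent.P147.Thin.Mass
import Vale.Agent.P147.Thin.Growth

open MeasureTheory Filter Topology Set
open scoped ENNReal

namespace Vale.Agent.Results.P147.PolynomialEscape

open Vale.Agent.P147

/-- In dimension at least `4 b + 11`, for every iid elliptic law: if with positive probability the
walk escapes along a signed axis `e` with range at most polynomial of degree `b` in the level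
reached, for instance if with positive probability its level is eventually at least `c n ^ γ` with
`γ b ≥ 1`, then it escapes along `e` almost surely and every invariant event, in particular escape
in every direction, has quenched probability zero or one. So a law which violates the zero-one law
has no such polynomial escape along any axis. -/
theorem result (d b : ℕ) (hd : 4 * b + 11 ≤ d) :
    (∃ Q : Env d → Site d → Measure (ℕ → Site d), IsQuenchedLaw Q) ∧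
    ∀ Q : Env d → Site d → Measure (ℕ → Site d), IsQuenchedLaw Q →
      ∀ μ : Measure (Row d), IsProbabilityMeasure μ → (∀ᵐ p ∂μ, ∀ a, 0 < p.1 a) →
        (∀ e : Step d,
          (∫⁻ ω, Q ω 0 (Thin.thinEscape e b) ∂Proj.iid μ ≠ 0 ∨
            ∃ γ : ℝ, 0 < γ ∧ 1 ≤ γ * b ∧
              ∫⁻ ω, Q ω 0 {X | ∃ c : ℝ, 0 < c ∧
                ∀ᶠ n : ℕ in atTop, c * (n : ℝ) ^ γ ≤ (Bal.lev e (X n) : ℝ)} ∂Proj.iid μ ≠ 0) →
          (∀ᵐ ω ∂Proj.iid μ, ∀ x, Q ω x (dirEscape fun j => (vec e j : ℝ)) = 1) ∧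
          (∀ l : Fin d → ℝ, ∃ q : ℝ≥0∞, (q = 0 ∨ q = 1) ∧
            (∀ᵐ ω ∂Proj.iid μ, ∀ x, Q ω x (dirEscape l) = q) ∧
            ∫⁻ ω, Q ω 0 (dirEscape l) ∂Proj.iid μ = q) ∧
          ∀ S : Set (ℕ → Site d), MeasurableSet S → Proj.Invariant S →
            ∃ q : ℝ≥0∞, (q = 0 ∨ q = 1) ∧
              (∀ᵐ ω ∂Proj.iid μ, ∀ x, Q ω x S = q) ∧ ∫⁻ ω, Q ω 0 S ∂Proj.iid μ = q) ∧
        ((∃ l : Fin d → ℝ,
            ∫⁻ ω, Q ω 0 (dirEscape l) ∂Proj.iid μ ≠ 0 ∧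
            ∫⁻ ω, Q ω 0 (dirEscape l) ∂Proj.iid μ ≠ 1) →
          ∀ (e : Step d) (γ : ℝ), 0 < γ → 1 ≤ γ * b →
            ∫⁻ ω, Q ω 0 {X | ∃ c : ℝ, 0 < c ∧
              ∀ᶠ n : ℕ in atTop, c * (n : ℝ) ^ γ ≤ (Bal.lev e (X n) : ℝ)} ∂Proj.iid μ = 0) := by
  refine ⟨exists_quenchedLaw d, fun Q hQ μ hμ hell => ?_⟩
  have := hμ
  have hd2 : 2 ≤ d := by omega
  have main : ∀ e : Step d, (∫⁻ ω, Q ω 0 (Thin.thinEscape e b) ∂Proj.iid μ ≠ 0 ∨
      ∃ γ : ℝ, 0 < γ ∧ 1 ≤ γ * b ∧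
        ∫⁻ ω, Q ω 0 {X | ∃ c : ℝ, 0 < c ∧
          ∀ᶠ n : ℕ in atTop, c * (n : ℝ) ^ γ ≤ (Bal.lev e (X n) : ℝ)} ∂Proj.iid μ ≠ 0) →
      (∀ᵐ ω ∂Proj.iid μ, ∀ x, Q ω x (dirEscape fun j => (vec e j : ℝ)) = 1) ∧
      ∀ S : Set (ℕ → Site d), MeasurableSet S → Proj.Invariant S →
        ∃ q : ℝ≥0∞, (q = 0 ∨ q = 1) ∧
          (∀ᵐ ω ∂Proj.iid μ, ∀ x, Q ω x S = q) ∧ ∫⁻ ω, Q ω 0 S ∂Proj.iid μ = q := by
    intro e h
    have hpos : ∫⁻ ω, Q ω 0 (Thin.thinEscape e b) ∂Proj.iid μ ≠ 0 := by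
      rcases h with h | ⟨γ, hγ, hγb, h⟩
      · exact h
      · intro h0
        exact h (le_antisymm ((lintegral_mono fun ω =>
          measure_mono (Thin.growth_subset e b hγ hγb)).trans h0.le) bot_le)
    have hmain := Thin.zero_one_of_thin (μ := μ) (Q := Q) hd hQ hell
      (fun p hp hu => Thin.localOut hd2 hell hp hu) (Thin.trailOut_of Thin.confOut hell e)
      (Thin.slabOut hd2 hQ hell) (Thin.massOut hQ) hpos
    rw [← Thin.escEv_eq]
    exact hmain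
  refine ⟨fun e h => ⟨(main e h).1, fun l => (main e h).2 _ (Proj.invariant_dirEscape l).2
    (Proj.invariant_dirEscape l).1, (main e h).2⟩, ?_⟩
  rintro ⟨l, h0, h1⟩ e γ hγ hγb
  by_contra hne
  obtain ⟨q, hq, -, hval⟩ := (main e (Or.inr ⟨γ, hγ, hγb, hne⟩)).2 _
    (Proj.invariant_dirEscape l).2 (Proj.invariant_dirEscape l).1
  rcases hq with rfl | rfl
  · exact h0 hval
  · exact h1 hval

end Vale.Agent.Results.P147.PolynomialEscape
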