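import Vale.Agent.P147.Main
import Vale.Agent.P147.Exist
import Vale.Agent.P147.Bernoulli

open MeasureTheory
open scoped ENNReal

namespace Vale.Agent.Results.P147.TransverseFixed

open Vale.Agent.P147

/-- The directional zero-one law, in every dimension and every direction, for environments whose
transition vectors are random along one axis and have a fixed conditional law across it. -/
theorem result (d : ℕ) :
    (∃ Q : Env d → Site d → Measure (ℕ → Site d), IsQuenchedLaw Q) ∧
    ∀ (Q : Env d → Site d → Measure (ℕ → Site d)), IsQuenchedLaw Q →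
      ∀ (i : Fin d) (w : Step d → ℝ) (l : Fin d → ℝ),
        (∀ μ : Measure (Row d), IsProbabilityMeasure μ →
          (∀ᵐ p ∂μ, FixedTransverse i w p) →
          ∃ c : ℝ≥0∞, (c = 0 ∨ c = 1) ∧
            (∀ᵐ ω ∂Measure.infinitePi (fun _ : Site d => μ), ∀ x, Q ω x (dirEscape l) = c) ∧
            ∫⁻ ω, Q ω 0 (dirEscape l) ∂Measure.infinitePi (fun _ : Site d => μ) = c) ∧
        (∀ P : Measure (Env d), IsProbabilityMeasure P →
          (∀ z, MeasurePreserving (shiftEnv z) P P) →
          Ergodic (shiftEnv (Pi.single i 1)) P →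
          (∀ᵐ ω ∂P, FixedTransverse i w (ω 0)) →
          ∃ c : ℝ≥0∞, (c = 0 ∨ c = 1) ∧ (∀ᵐ ω ∂P, ∀ x, Q ω x (dirEscape l) = c) ∧
            ∫⁻ ω, Q ω 0 (dirEscape l) ∂P = c) := by
  refine ⟨exists_quenchedLaw d, fun Q hQ i w l => ⟨fun μ hμ hrow => ?_, fun P hP hs he hrow => ?_⟩⟩
  · haveI := hμ
    exact zero_one_stationary _ (fun z => shiftEnv_iid μ z) (ergodic_iid μ i)
      ((measurePreserving_eval_infinitePi (fun _ : Site d => μ) 0).quasiMeasurePreserving.ae hrow)
      hQ l
  · haveI := hP
    exact zero_one_stationary P hs he hrow hQ l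

end Vale.Agent.Results.P147.TransverseFixed
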